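import Vale.Agent.N342B.Easy

/-!
The promise graph homomorphism problem is NP-hard for non-bipartite templates and easy for
bipartite ones, and it is NP-hard for digraphs with an aperiodic vertex against loopless digraphs.
-/

open Vale.Agent.N342B in
theorem Vale.Agent.Results.P342.A0PromiseHom.result :
    (∀ (A B : Type) [Finite B] (G : SimpleGraph A) (H : SimpleGraph B),
      Nonempty (G →g H) →
        (¬ G.IsBipartite →
          NPHard (graphs fun _ X => Nonempty (X →g G)) (graphs fun _ X => IsEmpty (X →g H))) ∧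
        (G.IsBipartite →
          InP (graphs fun _ X => Nonempty (X →g G)) (graphs fun _ X => IsEmpty (X →g H)))) ∧
    (∀ (A B : Type) [Finite B] (G : Digraph A) (H : Digraph B),
      Nonempty (G.Adj →r H.Adj) → (∃ v, Aperiodic G v) → (∀ b, ¬ H.Adj b b) →
        NPHard (digraphs fun _ X => Nonempty (X.Adj →r G.Adj))
          (digraphs fun _ X => IsEmpty (X.Adj →r H.Adj))) := by
  refine ⟨fun A B _ G H ⟨φ⟩ => ⟨fun h => ?_, easy_graph φ⟩,
    fun A B _ G H _ ⟨v, hv⟩ hH => hard_digraph hv hH⟩
  have := Fintype.ofFinite B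
  exact (hard_graph h (Fintype.card B)).mono subset_rfl (graphs_mono fun n X hX =>
    ⟨fun ψ => hX (H.colorable_of_fintype.of_hom ψ)⟩)
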