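import Vale.Agent.N342.Bridge

/-!
Approximate graph colouring stays NP-hard on graphs of bounded degree and large girth, with a
constant fraction of monochromatic edges, and four-colourable graphs are hard to distinguish from
graphs without independent sets of density `ε`.
-/

open Vale.Agent.N342 in
theorem Vale.Agent.Results.P342.A0Sparse.result :
    (∀ c g : ℕ, 3 ≤ c → ∃ (Δ : ℕ) (γ : ℝ), 0 < γ ∧
      GraphNPHard (fun _ G => G.Colorable 3 ∧ DegGirth Δ g G)
        (fun n G => 0 < n ∧ (∀ col : Fin n → Fin c, γ * n ≤ monoEdges G col) ∧ DegGirth Δ g G)) ∧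
    (∀ (ε : ℝ) (g : ℕ), 0 < ε → ∃ Δ : ℕ,
      GraphNPHard (fun _ G => G.Colorable 4 ∧ DegGirth Δ g G)
        (fun n G => 0 < n ∧ (G.indepNum : ℝ) ≤ ε * n ∧ DegGirth Δ g G)) :=
  ⟨fun _ g hc => hard_three (by omega) g, fun _ g hε => hard_indep hε g⟩
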